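import Vale.Agent.P036.Final

namespace Vale.Agent.Results.P036.A_full

open Vale.Agent.P036

theorem result :
    (∃ δ : ℝ, 0 < δ ∧ ∃ c : ℝ, 0 < c ∧ ∀ n : ℕ, 3 ≤ n →
      c * (n : ℝ) ^ (-2 + δ) ≤ heilbronn n) ∧
    ¬ (∀ ε : ℝ, 0 < ε → ∃ (C : ℝ) (n₀ : ℕ), ∀ n : ℕ, n₀ ≤ n →
      heilbronn n ≤ C * (n : ℝ) ^ (-2 + ε)) :=
  ⟨lower, not_upper⟩

end Vale.Agent.Results.P036.A_full
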